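import Vale.Agent.P259.Defs

/-!
# P259: shared vocabulary for models of a globular extension
-/

namespace Vale.Agent.P259

open CategoryTheory Opposite

noncomputable section

/-- Every parallel pair has a lift. -/
def Ext.Contractible (E : Ext) : Prop :=
  ∀ {n : ℕ} {T : Table} (f g : E.M (disc n) T), E.Parallel f g → ∃ h, E.IsLift f g h

theorem Coherator.C_contractible (C : Coherator) : C.C.Contractible :=
  fun f g h => C.contractible f g h

/-- Two cells have the same sides. -/
def Ext.Par (E : Ext) (X : E.Psh) : ∀ {n : ℕ}, E.cells X n → E.cells X n → Prop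
  | 0, _, _ => True
  | n + 1, a, b => ∀ e, E.act X (E.face e n) a = E.act X (E.face e n) b

/-- A cell with the given source and target. -/
def Ext.HasSides (E : Ext) (X : E.Psh) {n : ℕ} (c : E.cells X (n + 1)) (a b : E.cells X n) : Prop :=
  E.act X (E.face false n) c = a ∧ E.act X (E.face true n) c = b

/-- A contractible model: nonempty, and parallel cells are linked. -/
structure Ext.Ctr (E : Ext) (X : E.Psh) : Prop where
  nonempty : Nonempty (E.cells X 0)
  linked : ∀ {n : ℕ} (a b : E.cells X n), E.Par X a b → E.Linked X a b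

/-- Points are connected. -/
def Ext.Conn (E : Ext) (X : E.Psh) : Prop :=
  Nonempty (E.cells X 0) ∧ ∀ a b : E.cells X 0, E.Linked X a b

/-- Connected, and parallel paths are linked. -/
def Ext.OneConn (E : Ext) (X : E.Psh) : Prop :=
  E.Conn X ∧ ∀ a b : E.cells X 1, E.Par X a b → E.Linked X a b

theorem Ext.act_comp (E : Ext) (X : E.Psh) {R S T : Table} (f : E.M R S) (g : E.M S T)
    (x : E.at X T) : E.act X (f ≫ g) x = E.act X f (E.act X g x) :=
  ConcreteCategory.congr_hom ((congrArg X.map op_comp).trans (X.map_comp g.op f.op)) x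

theorem Ext.act_id (E : Ext) (X : E.Psh) {T : Table} (x : E.at X T) :
    E.act X (𝟙 (E.i.obj T)) x = x :=
  ConcreteCategory.congr_hom ((congrArg X.map op_id).trans (X.map_id _)) x

theorem Ext.act_natural (E : Ext) {X Y : E.Psh} (f : X ⟶ Y) {S T : Table} (g : E.M S T)
    (x : E.at X T) : E.act Y g (f.app _ x) = f.app _ (E.act X g x) :=
  (ConcreteCategory.congr_hom (f.naturality g.op) x).symm

/-- The groupoid represented by a globular sum. -/
def Ext.yon (E : Ext) (T : Table) : E.Gpd :=
  ⟨yoneda.obj (E.i.obj T), fun S c hc => E.sums S (E.i.obj T) c hc⟩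

/-- The map out of a representable given by a value. -/
def Ext.ofValue (E : Ext) {T : Table} (X : E.Gpd) (x : E.at X.obj T) : E.yon T ⟶ X :=
  ObjectProperty.homMk (yonedaEquiv.symm x)

theorem Ext.ofValue_app (E : Ext) {S T : Table} (X : E.Gpd) (x : E.at X.obj T) (g : E.M S T) :
    (E.ofValue X x).hom.app _ g = E.act X.obj g x :=
  rfl

/-- The action of a map on representables. -/
def Ext.yonMap (E : Ext) {S T : Table} (g : E.M S T) : E.yon S ⟶ E.yon T :=
  ObjectProperty.homMk (yoneda.map g)

/-- The category of elements, indexed by globular sums. -/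
structure Ext.El (E : Ext) (X : E.Psh) : Type where
  T : Table
  val : E.at X T

/-- Maps of elements. -/
@[ext]
structure Ext.El.Hom {E : Ext} {X : E.Psh} (a b : E.El X) : Type where
  hom : E.M a.T b.T
  w : E.act X hom b.val = a.val

instance Ext.El.category (E : Ext) (X : E.Psh) : Category (E.El X) where
  Hom := Ext.El.Hom
  id a := ⟨𝟙 _, E.act_id X a.val⟩
  comp f g := ⟨f.hom ≫ g.hom, by rw [E.act_comp, g.w, f.w]⟩
  id_comp f := Ext.El.Hom.ext (Category.id_comp _)
  comp_id f := Ext.El.Hom.ext (Category.comp_id _)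
  assoc f g h := Ext.El.Hom.ext (Category.assoc _ _ _)

end

end Vale.Agent.P259
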