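import Mathlib

/-!
# P259: globular sums, coherators, groupoids, disc functors, the homotopy hypothesis
-/

namespace Vale.Agent.P259

open CategoryTheory Opposite
open scoped Topology unitInterval

noncomputable section

/-! ### Globes and globular sums -/

/-- The objects of the globe category. -/
structure Globe : Type where
  dim : ℕ

/-- The condition on maps of globes: the identity, or a map of higher codimension given by the
side of its first step (`false` for the source). -/
def Globe.Ok (a b : Globe) : Option Bool → Prop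
  | none => a.dim = b.dim
  | some _ => a.dim < b.dim

/-- Maps of globes. -/
@[ext]
structure Globe.Hom (a b : Globe) : Type where
  first : Option Bool
  ok : Globe.Ok a b first

/-- The identity of a globe. -/
def Globe.idHom (a : Globe) : Globe.Hom a a := ⟨none, rfl⟩

/-- The composite of maps of globes. -/
def Globe.compHom {a b c : Globe} : Globe.Hom a b → Globe.Hom b c → Globe.Hom a c
  | ⟨none, hf⟩, ⟨none, hg⟩ => ⟨none, Eq.trans hf hg⟩
  | ⟨none, hf⟩, ⟨some e, hg⟩ => ⟨some e, Eq.trans_lt hf hg⟩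
  | ⟨some e, hf⟩, ⟨none, hg⟩ => ⟨some e, lt_of_lt_of_eq hf hg⟩
  | ⟨some e, hf⟩, ⟨some _, hg⟩ => ⟨some e, lt_trans hf hg⟩

theorem Globe.id_compHom {a b : Globe} : ∀ f : Globe.Hom a b, Globe.compHom a.idHom f = f
  | ⟨none, _⟩ => rfl
  | ⟨some _, _⟩ => rfl

theorem Globe.compHom_id {a b : Globe} : ∀ f : Globe.Hom a b, Globe.compHom f b.idHom = f
  | ⟨none, _⟩ => rfl
  | ⟨some _, _⟩ => rfl

theorem Globe.compHom_assoc {a b c d : Globe} : ∀ (f : Globe.Hom a b) (g : Globe.Hom b c)
    (h : Globe.Hom c d), Globe.compHom (Globe.compHom f g) h = Globe.compHom f (Globe.compHom g h)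
  | ⟨none, _⟩, ⟨none, _⟩, ⟨none, _⟩ => rfl
  | ⟨none, _⟩, ⟨none, _⟩, ⟨some _, _⟩ => rfl
  | ⟨none, _⟩, ⟨some _, _⟩, ⟨none, _⟩ => rfl
  | ⟨none, _⟩, ⟨some _, _⟩, ⟨some _, _⟩ => rfl
  | ⟨some _, _⟩, ⟨none, _⟩, ⟨none, _⟩ => rfl
  | ⟨some _, _⟩, ⟨none, _⟩, ⟨some _, _⟩ => rfl
  | ⟨some _, _⟩, ⟨some _, _⟩, ⟨none, _⟩ => rfl
  | ⟨some _, _⟩, ⟨some _, _⟩, ⟨some _, _⟩ => rfl

instance Globe.category : Category Globe where
  Hom := Globe.Hom
  id := Globe.idHom
  comp := Globe.compHom
  id_comp := Globe.id_compHom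
  comp_id := Globe.compHom_id
  assoc := Globe.compHom_assoc

/-- The side `e` of a globe in a higher one. -/
def Globe.face (e : Bool) {j i : ℕ} (h : j < i) : (⟨j⟩ : Globe) ⟶ ⟨i⟩ :=
  ⟨some e, h⟩

/-- A table of dimensions: the tops `top p` are glued along the bottoms `bot p`, target of the
first to source of the second. -/
structure Table : Type where
  len : ℕ
  top : Fin (len + 1) → ℕ
  bot : Fin len → ℕ
  lt_left : ∀ p, bot p < top p.castSucc
  lt_right : ∀ p, bot p < top p.succ

/-- The dimension of a globular sum. -/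
def Table.dim (T : Table) : ℕ := Finset.univ.sup T.top

/-- The cells of the globular sum before gluing. -/
def Table.Pre (T : Table) (n : Globe) : Type := Σ p, (n ⟶ (⟨T.top p⟩ : Globe))

/-- The gluing relation. -/
inductive Table.Rel (T : Table) (n : Globe) : T.Pre n → T.Pre n → Prop
  | glue (p : Fin T.len) (g : n ⟶ (⟨T.bot p⟩ : Globe)) :
      Rel T n ⟨p.castSucc, g ≫ Globe.face true (T.lt_left p)⟩
        ⟨p.succ, g ≫ Globe.face false (T.lt_right p)⟩

/-- Precomposition of cells before gluing. -/
def Table.preMap (T : Table) {n m : Globe} (f : m ⟶ n) (c : T.Pre n) : T.Pre m := ⟨c.1, f ≫ c.2⟩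

theorem Table.rel_map (T : Table) {n m : Globe} (f : m ⟶ n) (c d : T.Pre n) (h : T.Rel n c d) :
    T.Rel m (T.preMap f c) (T.preMap f d) := by
  cases h with
  | glue p g =>
    simp only [Table.preMap, ← Category.assoc]
    exact Table.Rel.glue p (f ≫ g)

/-- The globular sum as a globular set. -/
def Table.toGSet (T : Table) : Globeᵒᵖ ⥤ Type where
  obj n := Quot (T.Rel n.unop)
  map f := TypeCat.ofHom (Quot.map (T.preMap f.unop) (T.rel_map f.unop))
  map_id n := by
    refine ConcreteCategory.hom_ext _ _ fun c => ?_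
    induction c using Quot.ind with
    | _ c => exact congrArg (Quot.mk _) (Sigma.ext rfl (heq_of_eq (Category.id_comp c.2)))
  map_comp f g := by
    refine ConcreteCategory.hom_ext _ _ fun c => ?_
    induction c using Quot.ind with
    | _ c =>
      exact congrArg (Quot.mk _) (Sigma.ext rfl (heq_of_eq (Category.assoc g.unop f.unop c.2)))

/-- Globular sets. -/
abbrev GSet := Globeᵒᵖ ⥤ Type

/-- The category of globular sums: maps of globular sets. -/
instance Table.category : Category Table :=
  InducedCategory.instCategory (F := fun T : Table => (T.toGSet : GSet))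

/-- The map of globular sums given by a map of globular sets. -/
abbrev Table.homMk {S T : Table} (f : S.toGSet ⟶ T.toGSet) : S ⟶ T :=
  InducedCategory.homMk f

/-- The disc of dimension `n`. -/
def disc (n : ℕ) : Table := ⟨0, fun _ => n, Fin.elim0, fun p => p.elim0, fun p => p.elim0⟩

/-- A map of globular sums given on the cells before gluing. -/
def Table.homOfPre {S T : Table} (φ : ∀ n, S.Pre n → T.Pre n)
    (hrel : ∀ n c d, S.Rel n c d → T.Rel n (φ n c) (φ n d))
    (hnat : ∀ n m (f : m ⟶ n) c, φ m (S.preMap f c) = T.preMap f (φ n c)) : S ⟶ T :=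
  Table.homMk
    { app := fun n => TypeCat.ofHom (Quot.map (φ n.unop) (hrel n.unop))
      naturality := fun a b f => by
        refine ConcreteCategory.hom_ext _ _ fun c => ?_
        induction c using Quot.ind with
        | _ c => exact congrArg (Quot.mk _) (hnat _ _ f.unop c) }

/-- The cells of a position, before gluing. -/
def inclPre (T : Table) (p : Fin (T.len + 1)) (n : Globe) (c : (disc (T.top p)).Pre n) : T.Pre n :=
  ⟨p, c.2⟩

/-- The cells of a side, before gluing. -/
def sidePre (e : Bool) {j i : ℕ} (h : j < i) (n : Globe) (c : (disc j).Pre n) : (disc i).Pre n :=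
  ⟨0, c.2 ≫ Globe.face e h⟩

theorem disc_rel_false (j : ℕ) (n : Globe) (c d : (disc j).Pre n) (h : (disc j).Rel n c d) :
    False := by
  cases h with | glue q g => exact q.elim0

theorem sidePre_nat (e : Bool) {j i : ℕ} (h : j < i) (n m : Globe) (f : m ⟶ n)
    (c : (disc j).Pre n) :
    sidePre e h m ((disc j).preMap f c) = (disc i).preMap f (sidePre e h n c) :=
  Sigma.ext rfl (heq_of_eq (Category.assoc _ _ _))

/-- The position `p` in a globular sum. -/
def incl (T : Table) (p : Fin (T.len + 1)) : disc (T.top p) ⟶ T :=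
  Table.homOfPre (inclPre T p) (fun n c d h => (disc_rel_false _ n c d h).elim)
    (fun _ _ _ _ => rfl)

/-- The side `e` of a disc in a higher one. -/
def side (e : Bool) {j i : ℕ} (h : j < i) : disc j ⟶ disc i :=
  Table.homOfPre (sidePre e h) (fun n c d h' => (disc_rel_false _ n c d h').elim)
    (sidePre_nat e h)

/-- A functor sends every globular sum to the iterated pushout of its discs. -/
def PreservesSums {K : Type*} [Category K] (F : Table ⥤ K) : Prop :=
  ∀ (T : Table) (Z : K) (f : ∀ p, F.obj (disc (T.top p)) ⟶ Z),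
    (∀ p : Fin T.len,
      F.map (side true (T.lt_left p)) ≫ f p.castSucc =
        F.map (side false (T.lt_right p)) ≫ f p.succ) →
    ∃! h : F.obj T ⟶ Z, ∀ p, F.map (incl T p) ≫ h = f p

/-! ### Globular extensions and coherators -/

/-- A globular extension. -/
structure Ext : Type 1 where
  Obj : Type
  [cat : SmallCategory Obj]
  i : Table ⥤ Obj
  obj_bij : Function.Bijective i.obj
  sums : PreservesSums i

attribute [instance] Ext.cat

/-- The maps of an extension between two globular sums. -/
abbrev Ext.M (E : Ext) (S T : Table) : Type := E.i.obj S ⟶ E.i.obj T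

/-- The side `e` of the disc of dimension `n` in the next one. -/
abbrev Ext.face (E : Ext) (e : Bool) (n : ℕ) : E.M (disc n) (disc (n + 1)) :=
  E.i.map (side e n.lt_succ_self)

/-- Two maps out of a disc are parallel. -/
def Ext.Parallel (E : Ext) {T : Table} : ∀ {n : ℕ}, E.M (disc n) T → E.M (disc n) T → Prop
  | 0, _, _ => True
  | n + 1, f, g => ∀ e, E.face e n ≫ f = E.face e n ≫ g

/-- A lift of a pair. -/
def Ext.IsLift (E : Ext) {n : ℕ} {T : Table} (f g : E.M (disc n) T) (h : E.M (disc (n + 1)) T) :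
    Prop :=
  E.face false n ≫ h = f ∧ E.face true n ≫ h = g

/-- A pair which may receive a lift. -/
structure Ext.Pair (E : Ext) : Type where
  n : ℕ
  T : Table
  f : E.M (disc n) T
  g : E.M (disc n) T
  parallel : E.Parallel f g
  dim_le : T.dim ≤ n + 1

/-- Where a lift of a pair goes under a functor. -/
abbrev Ext.Pair.Target {E : Ext} (a : E.Pair) {K : Type 1} [Category.{0} K] (F : E.Obj ⥤ K) :
    Type :=
  F.obj (E.i.obj (disc (a.n + 1))) ⟶ F.obj (E.i.obj a.T)

/-- A lift of the image of a pair under a functor. -/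
def Ext.Pair.IsLiftTo {E : Ext} (a : E.Pair) {K : Type 1} [Category.{0} K] (F : E.Obj ⥤ K)
    (k : a.Target F) : Prop :=
  F.map (E.face false a.n) ≫ k = F.map a.f ∧ F.map (E.face true a.n) ≫ k = F.map a.g

/-- `E'` is obtained from `E` by universally adjoining lifts of a set of pairs. -/
structure Adjoins (E E' : Ext) : Type 1 where
  J : E.Obj ⥤ E'.Obj
  comm : E.i ⋙ J = E'.i
  A : Set E.Pair
  lift : ∀ a : A, E'.M (disc (a.1.n + 1)) a.1.T
  lift_src : ∀ a : A, HEq (E'.face false a.1.n ≫ lift a) (J.map a.1.f)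
  lift_tgt : ∀ a : A, HEq (E'.face true a.1.n ≫ lift a) (J.map a.1.g)
  universal : ∀ (K : Type 1) [Category.{0} K] (F : E.Obj ⥤ K), PreservesSums (E.i ⋙ F) →
    ∀ k : ∀ a : A, a.1.Target F, (∀ a : A, a.1.IsLiftTo F (k a)) →
      ∃! F' : E'.Obj ⥤ K, J ⋙ F' = F ∧ ∀ a, HEq (F'.map (lift a)) (k a)

/-- A coherator: the colimit of a tower starting at globular sums, each stage universally adjoining
lifts, in which every parallel pair has a lift. -/
structure Coherator : Type 1 where
  C : Ext
  stage : ℕ → Ext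
  zero_full : (stage 0).i.Full
  zero_faithful : (stage 0).i.Faithful
  step : ∀ k, Adjoins (stage k) (stage (k + 1))
  into : ∀ k, (stage k).Obj ⥤ C.Obj
  into_comm : ∀ k, (stage k).i ⋙ into k = C.i
  into_step : ∀ k, (step k).J ⋙ into (k + 1) = into k
  colimit : ∀ (K : Type 1) [Category.{0} K] (F : ∀ k, (stage k).Obj ⥤ K),
    (∀ k, (step k).J ⋙ F (k + 1) = F k) → ∃! G : C.Obj ⥤ K, ∀ k, into k ⋙ G = F k
  contractible : ∀ {n : ℕ} {T : Table} (f g : C.M (disc n) T),
    C.Parallel f g → ∃ h, C.IsLift f g h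

/-! ### Groupoids and weak equivalences -/

/-- Presheaves on an extension. -/
abbrev Ext.Psh (E : Ext) : Type 1 := E.Objᵒᵖ ⥤ Type

/-- The value of a presheaf at a globular sum. -/
abbrev Ext.at (E : Ext) (X : E.Psh) (T : Table) : Type := X.obj (op (E.i.obj T))

/-- The action of a map on the values of a presheaf. -/
abbrev Ext.act (E : Ext) (X : E.Psh) {S T : Table} (g : E.M S T) (x : E.at X T) : E.at X S :=
  X.map g.op x

/-- The globular sums go to iterated fibre products. -/
def Ext.IsGpd (E : Ext) (X : E.Psh) : Prop :=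
  ∀ (T : Table) (c : ∀ p, E.at X (disc (T.top p))),
    (∀ p : Fin T.len, E.act X (E.i.map (side true (T.lt_left p))) (c p.castSucc) =
      E.act X (E.i.map (side false (T.lt_right p))) (c p.succ)) →
    ∃! x : E.at X T, ∀ p, E.act X (E.i.map (incl T p)) x = c p

/-- The groupoids over an extension. -/
abbrev Ext.Gpd (E : Ext) : Type 1 := ObjectProperty.FullSubcategory (E.IsGpd : ObjectProperty E.Psh)

/-- The category of groupoids over an extension. -/
instance Ext.gpdCategory (E : Ext) : Category E.Gpd :=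
  ObjectProperty.FullSubcategory.category (E.IsGpd : ObjectProperty E.Psh)

/-- A choice of identity cells. -/
structure Ext.Units (E : Ext) : Type where
  unit : ∀ n, E.M (disc (n + 1)) (disc n)
  isLift : ∀ n, E.IsLift (𝟙 (E.i.obj (disc n))) (𝟙 _) (unit n)

/-- The cells of dimension `n`. -/
abbrev Ext.cells (E : Ext) (X : E.Psh) (n : ℕ) : Type := E.at X (disc n)

/-- The iterated identity of a point. -/
def Ext.Units.iter {E : Ext} (u : E.Units) {X : E.Psh} (x : E.cells X 0) : ∀ n, E.cells X n
  | 0 => x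
  | n + 1 => E.act X (u.unit n) (iter u x n)

/-- Being a loop at `x`: both sides are the iterated identity. -/
def Ext.IsLoop (E : Ext) (u : E.Units) (X : E.Psh) (x : E.cells X 0) :
    ∀ n, E.cells X n → Prop
  | 0, _ => True
  | n + 1, a => ∀ e, E.act X (E.face e n) a = u.iter x n

/-- There is a cell between two cells. -/
def Ext.Linked (E : Ext) (X : E.Psh) {n : ℕ} (a b : E.cells X n) : Prop :=
  ∃ c : E.cells X (n + 1), E.act X (E.face false n) c = a ∧ E.act X (E.face true n) c = b

/-- The relation of homotopy between cells. -/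
def Ext.Homotopic (E : Ext) (X : E.Psh) {n : ℕ} : E.cells X n → E.cells X n → Prop :=
  Relation.EqvGen (E.Linked X)

/-- A natural transformation on cells. -/
abbrev Ext.appCell (E : Ext) {X Y : E.Psh} (f : X ⟶ Y) (n : ℕ) (a : E.cells X n) : E.cells Y n :=
  f.app _ a

/-- Bijectivity on connected components and on all homotopy groups at all points. -/
def Ext.IsWeqMap (E : Ext) {X Y : E.Psh} (f : X ⟶ Y) : Prop :=
  (∀ y : E.cells Y 0, ∃ x : E.cells X 0, E.Homotopic Y (E.appCell f 0 x) y) ∧
  ∀ (u : E.Units) (x : E.cells X 0) (n : ℕ),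
    (∀ b, E.IsLoop u Y (E.appCell f 0 x) n b →
      ∃ a, E.IsLoop u X x n a ∧ E.Homotopic Y (E.appCell f n a) b) ∧
    ∀ a a', E.IsLoop u X x n a → E.IsLoop u X x n a' →
      E.Homotopic Y (E.appCell f n a) (E.appCell f n a') → E.Homotopic X a a'

/-- The weak equivalences of groupoids. -/
def Ext.weq (E : Ext) : MorphismProperty E.Gpd := fun _ _ f => E.IsWeqMap f.hom

/-- The underlying continuous map. -/
abbrev cmap {X Y : CompactlyGenerated.{0, 0}} (f : X ⟶ Y) : C(X.toTop, Y.toTop) := f.hom.hom

/-- Homotopy relative to the boundary of the cube. -/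
def CubeHomotopic {Z : Type} [TopologicalSpace Z] (n : ℕ) (a b : C(Fin n → I, Z)) : Prop :=
  a.HomotopicRel b (Cube.boundary (Fin n))

/-- A weak homotopy equivalence of spaces. -/
def IsTopWeq {X Y : CompactlyGenerated.{0, 0}} (f : X ⟶ Y) : Prop :=
  (∀ y : Y.toTop, ∃ x : X.toTop, Joined (cmap f x) y) ∧
  ∀ (n : ℕ) (x : X.toTop),
    (∀ b : GenLoop (Fin n) Y.toTop (cmap f x), ∃ a : GenLoop (Fin n) X.toTop x,
      CubeHomotopic n ((cmap f).comp a.1) b.1) ∧
    ∀ a a' : GenLoop (Fin n) X.toTop x,
      CubeHomotopic n ((cmap f).comp a.1) ((cmap f).comp a'.1) → CubeHomotopic n a.1 a'.1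

/-- The weak homotopy equivalences. -/
def topWeq : MorphismProperty CompactlyGenerated.{0, 0} := fun _ _ f => IsTopWeq f

/-! ### Disc functors -/

/-- The closed disc. -/
abbrev Ball (n : ℕ) : Type := {v : Fin n → ℝ // ∑ k, v k ^ 2 ≤ 1}

/-- The point of a hemisphere over a point of the disc. -/
def hemisphere (e : Bool) {n : ℕ} (v : Ball n) : Fin (n + 1) → ℝ :=
  Fin.snoc v.1 ((if e then 1 else -1) * Real.sqrt (1 - ∑ k, v.1 k ^ 2))

/-- The value at a disc of a functor to spaces. -/
abbrev Ext.discSpace (E : Ext) (D : E.Obj ⥤ CompactlyGenerated.{0, 0}) (n : ℕ) : Type :=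
  (D.obj (E.i.obj (disc n))).toTop

/-- A disc functor. -/
structure DiscFunctor (E : Ext) : Type 1 where
  D : E.Obj ⥤ CompactlyGenerated.{0, 0}
  sums : PreservesSums (E.i ⋙ D)
  homeo : ∀ n, E.discSpace D n ≃ₜ Ball n
  hemi : ∀ n e (x : E.discSpace D n),
    (homeo (n + 1) (cmap (D.map (E.face e n)) x)).1 = hemisphere e (homeo n x)

/-- The maps from the discs into a space. -/
abbrev DiscFunctor.sing {E : Ext} (D : DiscFunctor E) : CompactlyGenerated.{0, 0} ⥤ E.Psh :=
  yoneda ⋙ (Functor.whiskeringLeft _ _ _).obj D.D.op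

/-- Maps out of the discs form a groupoid. -/
theorem DiscFunctor.isGpd {E : Ext} (D : DiscFunctor E) (Y : CompactlyGenerated.{0, 0}) :
    E.IsGpd (D.sing.obj Y) := fun T c hc => D.sums T Y c hc

/-- The fundamental groupoid functor. -/
def DiscFunctor.pi {E : Ext} (D : DiscFunctor E) : CompactlyGenerated.{0, 0} ⥤ E.Gpd :=
  ObjectProperty.lift (E.IsGpd : ObjectProperty E.Psh) D.sing D.isGpd

/-- The localization of groupoids at weak equivalences. -/
abbrev Ext.Ho (E : Ext) : Type 1 := E.weq.Localization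

/-- The homotopy category of spaces. -/
abbrev HoTop : Type 1 := topWeq.Localization

/-- The homotopy hypothesis for a coherator. -/
def Hypothesis (C : Coherator) : Prop :=
  ∃ D : DiscFunctor C.C, topWeq ≤ C.C.weq.inverseImage D.pi ∧
    ∃ L : HoTop ⥤ C.C.Ho,
      Nonempty (topWeq.Q ⋙ L ≅ D.pi ⋙ C.C.weq.Q) ∧ L.IsEquivalence

end

end Vale.Agent.P259
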