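import Vale.Agent.P259.Simp
import Vale.Agent.P259.Complex.Subdiv

/-!
# P259: topological vocabulary: weakly contractible spaces, pair classes, standard discs
-/

namespace Vale.Agent.P259

open CategoryTheory
open scoped Topology unitInterval

noncomputable section

/-- The boundary of the disc. -/
def rim (n : ℕ) : Set (Ball n) := {v | ∑ k, v.1 k ^ 2 = 1}

/-- Every map of a sphere extends to the disc (the empty sphere included). -/
def WC (Z : Type) [TopologicalSpace Z] : Prop :=
  ∀ (k : ℕ) (f : C(rim k, Z)), ∃ F : C(Ball k, Z), ∀ v : rim k, F v.1 = f v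

section Pairs

variable {K : Type} [TopologicalSpace K] {W : Type} [TopologicalSpace W] {Z : Type}
  [TopologicalSpace Z]

/-- A map of `K` into `W` whose restriction to `B` comes from `Z` along `r`. -/
@[ext]
structure PMap (B : Set K) (r : C(Z, W)) : Type where
  f : C(K, W)
  w : C(B, Z)
  comm : ∀ b : B, f b.1 = r (w b)

/-- Homotopy of maps of pairs, the boundary moving inside `Z`. -/
def PMap.Hom {B : Set K} {r : C(Z, W)} (p q : PMap B r) : Prop :=
  ∃ (H : C(K × I, W)) (h : C(B × I, Z)),
    (∀ (b : B) t, H (b.1, t) = r (h (b, t))) ∧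
    (∀ x, H (x, 0) = p.f x) ∧ (∀ x, H (x, 1) = q.f x) ∧
    (∀ b, h (b, 0) = p.w b) ∧ ∀ b, h (b, 1) = q.w b

end Pairs

/-- The composite sides of standard discs, on coordinates. -/
def sideVec (e : Bool) {j i : ℕ} (v : Ball j) : Fin i → ℝ :=
  fun k => if h : k.1 < j then v.1 ⟨k.1, h⟩
    else if k.1 = j then (if e then 1 else -1) * Real.sqrt (1 - ∑ l, v.1 l ^ 2) else 0

/-- The simplex with the last-vertex ordering. -/
abbrev Splx (k : ℕ) : Type := P259.Complex.Real (P259.Complex.Cx.chains (Fin (k + 1)))

/-- A face of the simplex. -/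
def splxFace (k : ℕ) (s : Finset (Fin (k + 1))) : Set (Splx k) := {x | x.w.support ⊆ s}

/-- The realisation of the order complex of a poset. -/
abbrev PReal (P : Type) [Preorder P] : Type := P259.Complex.Real (P259.Complex.Cx.chains P)

end

end Vale.Agent.P259
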