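import Vale.Agent.P259.SimpModels
import Vale.Agent.P259.TopCore
import Vale.Agent.P259.Complex.Line
import Vale.Agent.P259.Cat.Elements

/-!
# P259: interfaces of the modules

The propositions below are proved in the modules; nothing is assumed here.
-/

namespace Vale.Agent.P259

open CategoryTheory
open scoped Topology unitInterval
open P259.Complex.Real (mapO)

noncomputable section

/-- Monotone map of vertices induced by a map of simplex systems. -/
def SimpSys.Hom.vert {S S' : SimpSys} (f : S.Hom S') : S.Vert →o S'.Vert where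
  toFun x := ⟨x.k, x.lab, x.strictMono, f.app _ x.g⟩
  monotone' := fun x y ⟨δ, hδ, hg⟩ => ⟨δ, hδ, by
    show S'.op δ (f.app _ y.g) = f.app _ x.g
    rw [← f.nat δ _ (SimpSys.Vert.op_injective hδ), hg]⟩

/-- The map of realisations induced by a map of simplex systems. -/
def SimpSys.Hom.space {S S' : SimpSys} (f : S.Hom S') : C(S.Space, S'.Space) := mapO f.vert

/-- The realisation of a map of models. -/
def SimpBase.real {E : Ext} (B : SimpBase E) {X Y : E.Gpd} (f : X ⟶ Y) :
    C((B.sys X).Space, (B.sys Y).Space) :=
  (B.sysMap f).space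

theorem hemisphere_sum (e : Bool) {n : ℕ} (v : Ball n) :
    ∑ k, hemisphere e v k ^ 2 = 1 := by
  rw [Fin.sum_univ_castSucc]
  simp only [hemisphere, Fin.snoc_castSucc, Fin.snoc_last]
  have h : (0 : ℝ) ≤ 1 - ∑ k, v.1 k ^ 2 := by linarith [v.2]
  cases e <;> simp [Real.sq_sqrt h]

/-- The hemispheres as maps of discs. -/
def hemi (e : Bool) (n : ℕ) : C(Ball n, Ball (n + 1)) where
  toFun v := ⟨hemisphere e v, (hemisphere_sum e v).le⟩
  continuous_toFun := by
    refine Continuous.subtype_mk (continuous_pi fun i => ?_) _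
    induction i using Fin.lastCases with
    | last =>
      simp only [hemisphere, Fin.snoc_last]
      exact continuous_const.mul (Real.continuous_sqrt.comp (continuous_const.sub
        (continuous_finsetSum _ fun k _ => ((continuous_apply k).comp continuous_subtype_val).pow 2)))
    | cast j =>
      simp only [hemisphere, Fin.snoc_castSucc]
      exact (continuous_apply j).comp continuous_subtype_val

/-- Maps of discs into the realisations of the representables, natural in the sides. -/
structure Iota {E : Ext} (B : SimpBase E) : Type 1 where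
  ι : ∀ n, C(Ball n, (B.sys (E.yon (disc n))).Space)
  nat : ∀ e n, (ι (n + 1)).comp (hemi e n) = (B.real (E.yonMap (E.face e n))).comp (ι n)

/-- The map of a disc given by a cell. -/
def Iota.theta {E : Ext} {B : SimpBase E} (J : Iota B) (X : E.Gpd) {n : ℕ}
    (a : E.cells X.obj n) : C(Ball n, (B.sys X).Space) :=
  (B.real (E.ofValue X a)).comp (J.ι n)

theorem SimpBase.real_id {E : Ext} (B : SimpBase E) (X : E.Gpd) :
    B.real (𝟙 X) = ContinuousMap.id _ := by
  refine ContinuousMap.ext fun p => P259.Complex.Real.ext ?_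
  show p.w.mapDomain _ = p.w
  exact (Finsupp.mapDomain_congr fun v _ => rfl).trans Finsupp.mapDomain_id

theorem SimpBase.real_comp {E : Ext} (B : SimpBase E) {X Y Z : E.Gpd} (f : X ⟶ Y) (g : Y ⟶ Z) :
    B.real (f ≫ g) = (B.real g).comp (B.real f) := by
  refine ContinuousMap.ext fun p => P259.Complex.Real.ext ?_
  show p.w.mapDomain _ = (p.w.mapDomain _).mapDomain _
  rw [← Finsupp.mapDomain_comp]
  rfl

/-- The realisation of models, as a functor to compactly generated spaces. -/
def SimpBase.realFunctor {E : Ext} (B : SimpBase E) : E.Gpd ⥤ CompactlyGenerated.{0, 0} where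
  obj X := CompactlyGenerated.of (B.sys X).Space
  map f := CompactlyGenerated.ofHom (B.real f)
  map_id X := by rw [B.real_id X]; rfl
  map_comp f g := by rw [B.real_comp f g]; rfl

namespace Spec

/-- Module A: linked is an equivalence relation on parallel cells. -/
def LinkedEquiv : Prop := ∀ E : Ext, E.Contractible → ∀ (X : E.Gpd) (n : ℕ),
  (∀ a : E.cells X.obj n, E.Linked X.obj a a) ∧
  (∀ a b : E.cells X.obj n, E.Linked X.obj a b → E.Linked X.obj b a) ∧
  ∀ a b c : E.cells X.obj n, E.Linked X.obj a b → E.Linked X.obj b c → E.Linked X.obj a c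

/-- Module A: representables are contractible. -/
def YonCtr : Prop := ∀ E : Ext, E.Contractible → ∀ T : Table, E.Ctr (E.yon T).obj

/-- Module C: contractible models have acyclic categories of elements. -/
def ElemAcyclic : Prop := ∀ E : Ext, E.Contractible → ∀ X : E.Gpd, E.Ctr X.obj →
  ∀ k, (Cat.nerveCx (E.El X.obj)).Exact k

/-- Module C: one connected models with acyclic categories of elements are contractible. -/
def CtrOfAcyclic : Prop := ∀ E : Ext, E.Contractible → ∀ X : E.Gpd, E.OneConn X.obj →
  (∀ k, (Cat.nerveCx (E.El X.obj)).Exact k) → E.Ctr X.obj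

/-- Module D: simplices exist. -/
def SimplicesExist : Prop := ∀ C : Coherator, Nonempty (Simplices C.C)

/-- Module D: free models on ordered complexes exist. -/
def RepExists : Prop := ∀ (E : Ext) (B : SimpBase E) (Q : OCx), Nonempty (B.Rep Q)

/-- Module D: free models on finite cones are contractible. -/
def RepCtrCone : Prop := ∀ (C : Coherator) (S : Simplices C.C) (Q : OCx) (j : Q.V),
  Finite Q.V → (∃ v : Q.Simp 0, v.1 0 = j) → Q.IsCone j →
    ∀ R : S.toSimpBase.Rep Q, C.C.Ctr R.G.obj

/-- Module D: free models on zigzag contractible finite posets are contractible. -/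
def RepCtrZig : Prop := ∀ (C : Coherator) (S : Simplices C.C) (P : Type) [PartialOrder P] [Finite P],
  OCx.IsZig P → ∀ R : S.toSimpBase.Rep (OCx.chains P), C.C.Ctr R.G.obj

/-- Module G: systems in which boundaries fill have weakly contractible realisations. -/
def RealWC : Prop := ∀ S : SimpSys, S.Fills → WC S.Space

/-- Module G: simplices of contractible models fill. -/
def SysFills : Prop := ∀ (C : Coherator) (S : Simplices C.C) (X : C.C.Gpd), C.C.Ctr X.obj →
  (S.toSimpBase.sys X).Fills

/-- Module G: maps of discs natural in the sides exist. -/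
def IotaExists : Prop := ∀ (C : Coherator) (S : Simplices C.C), Nonempty (Iota S.toSimpBase)

/-- Module G: every point of the realisation is joined to a vertex. -/
def RealPoints : Prop := ∀ (C : Coherator) (S : Simplices C.C) (J : Iota S.toSimpBase)
  (X : C.C.Gpd) (y : (S.toSimpBase.sys X).Space),
    ∃ x : C.C.cells X.obj 0, ∀ v : Ball 0, Joined (J.theta X x v) y

/-- Module G: cells with sides in a contractible model compute the homotopy of the realisation. -/
def RealPi : Prop := ∀ (C : Coherator) (S : Simplices C.C) (J : Iota S.toSimpBase)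
  (Z X : C.C.Gpd) (r : Z ⟶ X), C.C.Ctr Z.obj →
  ∀ (n : ℕ) (b : Bool → C.C.cells Z.obj n), C.C.Par Z.obj (b false) (b true) →
  ∀ w : C(rim (n + 1), (S.toSimpBase.sys Z).Space),
    (∀ e v, ∀ h : hemi e n v ∈ rim (n + 1), w ⟨_, h⟩ = J.theta Z (b e) v) →
    (∀ (f : C(Ball (n + 1), (S.toSimpBase.sys X).Space))
        (hf : ∀ v : rim (n + 1), f v.1 = S.toSimpBase.real r (w v)),
      ∃ (a : C.C.cells X.obj (n + 1))
        (_ : C.C.HasSides X.obj a (C.C.appCell r.hom n (b false)) (C.C.appCell r.hom n (b true)))
        (ha : ∀ v : rim (n + 1), J.theta X a v.1 = S.toSimpBase.real r (w v)),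
        (PMap.mk (J.theta X a) w ha).Hom (PMap.mk f w hf)) ∧
    ∀ a a' : C.C.cells X.obj (n + 1),
      C.C.HasSides X.obj a (C.C.appCell r.hom n (b false)) (C.C.appCell r.hom n (b true)) →
      C.C.HasSides X.obj a' (C.C.appCell r.hom n (b false)) (C.C.appCell r.hom n (b true)) →
      ∀ (ha : ∀ v : rim (n + 1), J.theta X a v.1 = S.toSimpBase.real r (w v))
        (ha' : ∀ v : rim (n + 1), J.theta X a' v.1 = S.toSimpBase.real r (w v)),
        (PMap.mk (J.theta X a) w ha).Hom (PMap.mk (J.theta X a') w ha') →
          C.C.Linked X.obj a a'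

/-- Module G: points in one component of the realisation come from linked points. -/
def RealPiZero : Prop := ∀ (C : Coherator) (S : Simplices C.C) (J : Iota S.toSimpBase)
  (X : C.C.Gpd) (x x' : C.C.cells X.obj 0),
    (∀ v : Ball 0, Joined (J.theta X x v) (J.theta X x' v)) → C.C.Linked X.obj x x'

/-- Module T: a disc functor with weakly contractible values exists. -/
def DiscExists : Prop := ∀ C : Coherator, ∃ D : DiscFunctor C.C,
  ∀ T : Table, WC (D.D.obj (C.C.i.obj T)).toTop

/-- Module T: the fundamental groupoid preserves weak equivalences. -/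
def PiPreserves : Prop := ∀ (C : Coherator) (D : DiscFunctor C.C),
  topWeq ≤ C.C.weq.inverseImage D.pi

/-- Module S: spaces are naturally equivalent to the realisations of their groupoids. -/
def TopReal : Prop := ∀ (C : Coherator) (S : Simplices C.C) (D : DiscFunctor C.C),
  (∀ T : Table, WC (D.D.obj (C.C.i.obj T)).toTop) →
  ∃ (Q : CompactlyGenerated.{0, 0} ⥤ CompactlyGenerated.{0, 0})
    (e : Q ⟶ 𝟭 CompactlyGenerated.{0, 0}) (η : Q ⟶ D.pi ⋙ S.toSimpBase.realFunctor),
    ∀ Y, topWeq (e.app Y) ∧ topWeq (η.app Y)

/-- Module H: models are naturally equivalent to the groupoids of their realisations. -/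
def ModelReal : Prop := ∀ (C : Coherator) (S : Simplices C.C) (D : DiscFunctor C.C),
  (∀ T : Table, WC (D.D.obj (C.C.i.obj T)).toTop) →
  ∃ (M : C.C.Gpd ⥤ C.C.Gpd) (p : M ⟶ 𝟭 C.C.Gpd) (q : M ⟶ S.toSimpBase.realFunctor ⋙ D.pi),
    ∀ X, C.C.weq (p.app X) ∧ C.C.weq (q.app X)

/-- Module H: the realisation preserves weak equivalences. -/
def RealPreserves : Prop := ∀ (C : Coherator) (S : Simplices C.C),
  C.C.weq ≤ topWeq.inverseImage S.toSimpBase.realFunctor

end Spec

end

end Vale.Agent.P259
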