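import Vale.Agent.P259.Core

/-!
# P259: simplex systems, ordered complexes, families of simplices
-/

namespace Vale.Agent.P259

open CategoryTheory

noncomputable section

/-- Monotone maps of finite ordinals. -/
abbrev Op (k j : ℕ) : Type := Fin (k + 1) →o Fin (j + 1)

/-- The face missing the vertex `i`. -/
def Op.delta {k : ℕ} (i : Fin (k + 2)) : Op k (k + 1) :=
  ⟨i.succAbove, (Fin.strictMono_succAbove i).monotone⟩

theorem Op.delta_injective {k : ℕ} (i : Fin (k + 2)) : Function.Injective (Op.delta i) :=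
  Fin.succAbove_right_injective

/-- A semisimplicial set with degeneracy operators obeying the two laws with faces. -/
structure SimpSys : Type 1 where
  S : ℕ → Type
  op : ∀ {k j : ℕ}, Op k j → S j → S k
  op_id : ∀ {k : ℕ} (g : S k), op (OrderHom.id : Op k k) g = g
  op_face_op : ∀ {i k j : ℕ} (δ : Op i k) (a : Op k j) (g : S j),
    Function.Injective δ → op δ (op a g) = op (a.comp δ) g
  op_op_face : ∀ {i k j : ℕ} (a : Op i k) (δ : Op k j) (g : S j),
    Function.Injective δ → op a (op δ g) = op (δ.comp a) g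

/-- An ordered complex: a poset with a collection of strictly monotone simplices closed under
faces. -/
structure OCx : Type 1 where
  V : Type
  [ord : PartialOrder V]
  mem : ∀ {k : ℕ}, (Fin (k + 1) → V) → Prop
  strictMono : ∀ {k : ℕ} {v : Fin (k + 1) → V}, mem v → StrictMono v
  face : ∀ {k j : ℕ} {v : Fin (k + 1) → V} (δ : Op j k),
    mem v → Function.Injective δ → mem (v ∘ δ)

attribute [instance] OCx.ord

/-- The simplices of an ordered complex. -/
abbrev OCx.Simp (Q : OCx) (k : ℕ) : Type := {v : Fin (k + 1) → Q.V // Q.mem v}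

/-- The face of a simplex. -/
abbrev OCx.Simp.face {Q : OCx} {k j : ℕ} (v : Q.Simp k) (δ : Op j k) (h : Function.Injective δ) :
    Q.Simp j :=
  ⟨v.1 ∘ δ, Q.face δ v.2 h⟩

/-- The order complex of a poset. -/
def OCx.chains (P : Type) [PartialOrder P] : OCx where
  V := P
  mem v := StrictMono v
  strictMono h := h
  face δ hv hδ := hv.comp (δ.monotone.strictMono_of_injective hδ)

/-- The subcomplex of the simplices whose vertex set satisfies a downward closed condition. -/
def OCx.sub (Q : OCx) (good : Set Q.V → Prop) (hgood : ∀ s t, t ⊆ s → good s → good t) : OCx where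
  V := Q.V
  mem v := Q.mem v ∧ good (Set.range v)
  strictMono h := Q.strictMono h.1
  face δ hv hδ := ⟨Q.face δ hv.1 hδ, hgood _ _ (Set.range_comp_subset_range δ _) hv.2⟩

/-- The simplex of dimension `k`. -/
abbrev OCx.simplex (k : ℕ) : OCx := OCx.chains (Fin (k + 1))

/-- The boundary of the simplex. -/
abbrev OCx.bdry (k : ℕ) : OCx :=
  (OCx.simplex k).sub (fun s => s ≠ Set.univ) fun _ _ h hs ht => hs (Set.univ_subset_iff.1 (ht ▸ h))

/-- The horn at the vertex `j`. -/
abbrev OCx.horn (k : ℕ) (j : Fin (k + 1)) : OCx :=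
  (OCx.simplex k).sub (fun s => ∃ i, i ≠ j ∧ i ∉ s) fun _ _ h ⟨i, hi, hs⟩ => ⟨i, hi, fun ht => hs (h ht)⟩

/-- A complex is a cone at a vertex: adjoining it to a simplex gives a simplex. -/
def OCx.IsCone (Q : OCx) (j : Q.V) : Prop :=
  ∀ {k : ℕ} (v : Q.Simp k), ∃ (l : ℕ) (w : Q.Simp l), Set.range w.1 = insert j (Set.range v.1)

/-- A poset is zigzag contractible: the identity is joined to a constant by comparable maps. -/
def OCx.IsZig (P : Type) [PartialOrder P] : Prop :=
  ∃ p : P, Relation.EqvGen (fun f g : P →o P => f ≤ g) OrderHom.id (OrderHom.const P p)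

/-- A compatible family of simplices on an ordered complex. -/
@[ext]
structure Fam (Q : OCx) (S : SimpSys) : Type where
  app : ∀ {k : ℕ}, Q.Simp k → S.S k
  nat : ∀ {k j : ℕ} (v : Q.Simp k) (δ : Op j k) (h : Function.Injective δ),
    S.op δ (app v) = app (v.face δ h)

/-- A map of simplex systems, compatible with faces. -/
structure SimpSys.Hom (S S' : SimpSys) : Type where
  app : ∀ k, S.S k → S'.S k
  nat : ∀ {k j : ℕ} (δ : Op j k) (g : S.S k), Function.Injective δ →
    app j (S.op δ g) = S'.op δ (app k g)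

/-- The image of a family. -/
def Fam.map {Q : OCx} {S S' : SimpSys} (g : Fam Q S) (f : S.Hom S') : Fam Q S' where
  app v := f.app _ (g.app v)
  nat v δ h := by rw [← f.nat δ _ h, g.nat v δ h]

/-- Every boundary family extends. -/
def SimpSys.Fills (S : SimpSys) : Prop :=
  Nonempty (S.S 0) ∧ ∀ k (g : Fam (OCx.bdry (k + 1)) S), ∃ z : S.S (k + 1),
    ∀ {j : ℕ} (v : (OCx.bdry (k + 1)).Simp j),
      S.op ⟨v.1, (v.2.1 : StrictMono v.1).monotone⟩ z = g.app v

end

end Vale.Agent.P259
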