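import Vale.Agent.P259.Simp
import Vale.Agent.P259.Complex.Basic

/-!
# P259: simplices in models, the vertices of the realisation
-/

namespace Vale.Agent.P259

open CategoryTheory

noncomputable section

/-- Models indexed by finite ordinals with operators obeying the two laws. -/
structure SimpBase (E : Ext) : Type 1 where
  F : ℕ → E.Gpd
  map : ∀ {k j : ℕ}, Op k j → (F k ⟶ F j)
  map_id : ∀ k, map (OrderHom.id : Op k k) = 𝟙 (F k)
  map_face_op : ∀ {i k j : ℕ} (δ : Op i k) (a : Op k j),
    Function.Injective δ → map δ ≫ map a = map (a.comp δ)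
  map_op_face : ∀ {i k j : ℕ} (a : Op i k) (δ : Op k j),
    Function.Injective δ → map a ≫ map δ = map (δ.comp a)

/-- The simplices of a model. -/
def SimpBase.sys {E : Ext} (B : SimpBase E) (X : E.Gpd) : SimpSys where
  S k := B.F k ⟶ X
  op a g := B.map a ≫ g
  op_id g := by rw [B.map_id, Category.id_comp]
  op_face_op δ a g h := by rw [← Category.assoc, B.map_face_op δ a h]
  op_op_face a δ g h := by rw [← Category.assoc, B.map_op_face a δ h]

/-- The map of simplices induced by a map of models. -/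
def SimpBase.sysMap {E : Ext} (B : SimpBase E) {X Y : E.Gpd} (f : X ⟶ Y) :
    (B.sys X).Hom (B.sys Y) where
  app _ g := g ≫ f
  nat _ _ _ := Category.assoc _ _ _

/-- The tautological family of a simplex of models on the faces of it. -/
def SimpBase.taut {E : Ext} (B : SimpBase E) (k : ℕ) : Fam (OCx.simplex k) (B.sys (B.F k)) where
  app v := B.map ⟨v.1, (v.2 : StrictMono v.1).monotone⟩
  nat v δ h := B.map_face_op δ _ h

/-- Restriction of a family to a subcomplex of it. -/
def Fam.restr {Q : OCx} {S : SimpSys} (g : Fam Q S) (good : Set Q.V → Prop)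
    (hgood : ∀ s t, t ⊆ s → good s → good t) : Fam (Q.sub good hgood) S where
  app v := g.app ⟨v.1, v.2.1⟩
  nat v δ h := g.nat ⟨v.1, v.2.1⟩ δ h

/-- The horn part of a boundary family. -/
def Fam.toHorn {k : ℕ} {S : SimpSys} (g : Fam (OCx.bdry (k + 1)) S) (j : Fin (k + 2)) :
    Fam (OCx.horn (k + 1) j) S where
  app v := g.app ⟨v.1, v.2.1, fun h => by
    obtain ⟨i, -, hi⟩ := v.2.2
    exact hi (h ▸ Set.mem_univ i)⟩
  nat v δ h := g.nat _ δ h

/-- The face missing the vertex `i`, as a simplex of the boundary. -/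
def OCx.bdryFace (k : ℕ) (i : Fin (k + 2)) : (OCx.bdry (k + 1)).Simp k :=
  ⟨i.succAbove, Fin.strictMono_succAbove i, fun h => by
    have h' : i ∈ Set.range i.succAbove := h ▸ Set.mem_univ i
    obtain ⟨x, hx⟩ := h'
    exact Fin.succAbove_ne i x hx⟩

/-- The boundary of a simplex in a simplex system. -/
def SimpSys.bdryOf (S : SimpSys) {k : ℕ} (z : S.S k) : Fam (OCx.bdry k) S where
  app v := S.op ⟨v.1, (v.2.1 : StrictMono v.1).monotone⟩ z
  nat v δ h := S.op_face_op δ _ z h

/-- Simplices of models: each is its boundary with one free cell from the face missing the first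
vertex to a filler in the horn. -/
structure Simplices (E : Ext) : Type 1 extends SimpBase E where
  top : ∀ k, E.cells (F k).obj k
  zero_univ : ∀ (X : E.Gpd) (x : E.cells X.obj 0),
    ∃! g : F 0 ⟶ X, E.appCell g.hom 0 (top 0) = x
  fillOf : ∀ {k : ℕ} {X : E.Gpd},
    Fam (OCx.horn (k + 1) 0) (toSimpBase.sys X) → E.cells X.obj k
  fillOf_natural : ∀ {k : ℕ} {X Y : E.Gpd} (f : X ⟶ Y)
    (h : Fam (OCx.horn (k + 1) 0) (toSimpBase.sys X)),
    fillOf (h.map (toSimpBase.sysMap f)) = E.appCell f.hom k (fillOf h)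
  par : ∀ {k : ℕ} {X : E.Gpd} (b : Fam (OCx.bdry (k + 1)) (toSimpBase.sys X)),
    E.Par X.obj (E.appCell (b.app (OCx.bdryFace k 0)).hom k (top k)) (fillOf (b.toHorn 0))
  top_src : ∀ k, E.act (F (k + 1)).obj (E.face false k) (top (k + 1)) =
    E.appCell (map (Op.delta 0)).hom k (top k)
  top_tgt : ∀ k, E.act (F (k + 1)).obj (E.face true k) (top (k + 1)) =
    fillOf (((toSimpBase.taut (k + 1)).restr (fun s : Set (Fin (k + 2)) => s ≠ Set.univ)
      fun _ _ h hs ht => hs (Set.univ_subset_iff.1 (ht ▸ h))).toHorn 0)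
  univ : ∀ {k : ℕ} {X : E.Gpd} (b : Fam (OCx.bdry (k + 1)) (toSimpBase.sys X))
    (z : E.cells X.obj (k + 1)),
    E.HasSides X.obj z (E.appCell (b.app (OCx.bdryFace k 0)).hom k (top k))
      (fillOf (b.toHorn 0)) →
    ∃! g : F (k + 1) ⟶ X, E.appCell g.hom (k + 1) (top (k + 1)) = z ∧
      (toSimpBase.sys X).bdryOf g = b

/-- A model freely generated by the simplices of an ordered complex. -/
structure SimpBase.Rep {E : Ext} (B : SimpBase E) (Q : OCx) : Type 1 where
  G : E.Gpd
  fam : Fam Q (B.sys G)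
  univ : ∀ (X : E.Gpd) (φ : Fam Q (B.sys X)), ∃! g : G ⟶ X, fam.map (B.sysMap g) = φ

/-- Vertices of the realisation: a simplex with rational labels. -/
structure SimpSys.Vert (S : SimpSys) : Type where
  k : ℕ
  lab : Fin (k + 1) → ℚ
  strictMono : StrictMono lab
  g : S.S k

/-- Restriction along the labels. -/
def SimpSys.Vert.Le {S : SimpSys} (x y : S.Vert) : Prop :=
  ∃ δ : Op x.k y.k, y.lab ∘ δ = x.lab ∧ S.op δ y.g = x.g

theorem SimpSys.Vert.op_injective {S : SimpSys} {x y : S.Vert} {δ : Op x.k y.k}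
    (h : y.lab ∘ δ = x.lab) : Function.Injective δ := fun a b hab =>
  x.strictMono.injective (by rw [← h]; exact congrArg y.lab hab)

instance SimpSys.Vert.partialOrder (S : SimpSys) : PartialOrder S.Vert where
  le := SimpSys.Vert.Le
  le_refl x := ⟨OrderHom.id, rfl, S.op_id _⟩
  le_trans x y z := fun ⟨δ, hδ, hg⟩ ⟨ε, hε, hh⟩ =>
    ⟨ε.comp δ, by rw [← hδ, ← hε]; rfl, by
      rw [← S.op_face_op δ ε z.g (Vert.op_injective hδ), hh, hg]⟩
  le_antisymm := by
    rintro ⟨k, lab, hlab, g⟩ ⟨j, lab', hlab', g'⟩ ⟨δ, hδ, hg⟩ ⟨ε, hε, hh⟩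
    dsimp at δ hδ hg ε hε hh
    have h1 : lab ∘ (ε ∘ δ) = lab := by rw [← Function.comp_assoc, hε, hδ]
    have h2 : lab' ∘ (δ ∘ ε) = lab' := by rw [← Function.comp_assoc, hδ, hε]
    have hkj : k = j := by
      have e : Fin (k + 1) ≃ Fin (j + 1) :=
        ⟨δ, ε, fun a => hlab.injective (congrFun h1 a), fun a => hlab'.injective (congrFun h2 a)⟩
      have := Fin.equiv_iff_eq.1 ⟨e⟩
      omega
    subst hkj
    have hs : StrictMono δ := δ.monotone.strictMono_of_injective fun a b hab =>
      hlab.injective (by rw [← hδ]; exact congrArg lab' hab)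
    have hid : δ = OrderHom.id := OrderHom.ext _ _ ((hs.range_inj strictMono_id).1 (by
      rw [Set.range_id]; exact (Finite.injective_iff_surjective.1 hs.injective).range_eq))
    subst hid
    have hl : lab' = lab := hδ
    subst hl
    rw [S.op_id] at hg
    subst hg
    rfl

/-- The realisation of a simplex system. -/
abbrev SimpSys.Space (S : SimpSys) : Type :=
  P259.Complex.Real (P259.Complex.Cx.chains S.Vert)

end

end Vale.Agent.P259
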